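import Vale.Agent.Lib.P042.Growth

namespace Vale.Agent.Results.P042.GreedyLower

open Polynomial Vale.Agent.Lib.P042

theorem result (h : ℤ[X]) (hdeg : 2 ≤ h.natDegree) (hlead : 0 < h.leadingCoeff) :
    ∃ c : ℝ, 0 < c ∧ ∀ N : ℕ, c * (N : ℝ) ^ (1 - 1 / (h.natDegree : ℝ)) ≤ (r h N : ℝ) := by
  classical
  obtain ⟨n0, hn0⟩ := eventually_pow_le h hlead
  set k := h.natDegree with hk
  have hkpos : 0 < k := by omega
  have hk0 : (0 : ℝ) < (k : ℝ) := by exact_mod_cast hkpos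
  refine ⟨1 / (2 * n0 + 7), by positivity, fun N => ?_⟩
  rcases Nat.eq_zero_or_pos N with rfl | hN
  · have hexp : (1 - 1 / (k : ℝ)) ≠ 0 := by
      have : (2 : ℝ) ≤ (k : ℝ) := by exact_mod_cast hdeg
      have h2 : 1 / (k : ℝ) ≤ 1 / 2 := by
        apply one_div_le_one_div_of_le (by norm_num) this
      intro h0
      linarith
    rw [Nat.cast_zero, Real.zero_rpow hexp, mul_zero]
    exact Nat.cast_nonneg _
  have hN1 : (1 : ℝ) ≤ (N : ℝ) := by exact_mod_cast hN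
  have hNpos : (0 : ℝ) < (N : ℝ) := by linarith
  set Y : ℝ := (2 * (N : ℝ)) ^ (1 / (k : ℝ)) with hY
  have hY0 : 0 ≤ Y := by positivity
  -- the index set
  set I : Finset ℕ := Finset.range n0 ∪ Finset.range (⌊Y⌋₊ + 1) with hI
  set D : Finset ℕ := I.image (fun n : ℕ => (h.eval (n : ℤ)).natAbs) with hDdef
  have hcond : ∀ a ∈ Finset.Icc 1 N, ∀ b ∈ Finset.Icc 1 N, ∀ n : ℕ, 1 ≤ n →
      (a : ℤ) - (b : ℤ) = h.eval (n : ℤ) → (a : ℤ) - (b : ℤ) ≠ 0 →
      ∃ d ∈ D, a = b + d ∨ b = a + d := by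
    intro a ha b hb n hn hab hne
    rw [Finset.mem_Icc] at ha hb
    have hnI : n ∈ I := by
      by_cases hnn : n < n0
      · exact Finset.mem_union_left _ (Finset.mem_range.2 hnn)
      · apply Finset.mem_union_right
        rw [Finset.mem_range, Nat.lt_succ_iff]
        apply Nat.le_floor
        have h1 := hn0 n (by omega)
        have h2 : (n : ℤ) ^ k ≤ 2 * (N : ℤ) := by
          have : h.eval (n : ℤ) ≤ (N : ℤ) := by
            rw [← hab]
            have : (a : ℤ) ≤ N := by exact_mod_cast ha.2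
            have : (0 : ℤ) ≤ b := by positivity
            linarith
          linarith
        have h3 : (n : ℝ) ^ k ≤ 2 * (N : ℝ) := by exact_mod_cast h2
        rw [hY]
        calc (n : ℝ) = ((n : ℝ) ^ k) ^ (1 / (k : ℝ)) := by
              rw [← Real.rpow_natCast, ← Real.rpow_mul (by positivity)]
              rw [mul_one_div_cancel hk0.ne', Real.rpow_one]
          _ ≤ (2 * (N : ℝ)) ^ (1 / (k : ℝ)) := by
              apply Real.rpow_le_rpow (by positivity) h3 (by positivity)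
    refine ⟨(h.eval (n : ℤ)).natAbs, Finset.mem_image_of_mem _ hnI, ?_⟩
    omega
  obtain ⟨A, hAB, hAav, hcard⟩ := exists_avoiding_subset h (Finset.Icc 1 N) D hcond
  have hr : A.card ≤ r h N := card_le_r hAB hAav
  rw [Nat.card_Icc, Nat.add_sub_cancel] at hcard
  have hDcard : (D.card : ℝ) ≤ n0 + Y + 1 := by
    have h1 : D.card ≤ n0 + (⌊Y⌋₊ + 1) := by
      calc D.card ≤ I.card := Finset.card_image_le
        _ ≤ (Finset.range n0).card + (Finset.range (⌊Y⌋₊ + 1)).card := Finset.card_union_le _ _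
        _ = n0 + (⌊Y⌋₊ + 1) := by simp
    have h2 : ((⌊Y⌋₊ : ℕ) : ℝ) ≤ Y := Nat.floor_le hY0
    have h3 : (D.card : ℝ) ≤ (n0 : ℝ) + ((⌊Y⌋₊ : ℝ) + 1) := by exact_mod_cast h1
    linarith
  set Z : ℝ := (N : ℝ) ^ (1 / (k : ℝ)) with hZ
  have hZ1 : 1 ≤ Z := Real.one_le_rpow hN1 (by positivity)
  have hYZ : Y ≤ 2 * Z := by
    rw [hY, hZ, Real.mul_rpow (by norm_num) hNpos.le]
    apply mul_le_mul_of_nonneg_right _ (by positivity)
    calc (2 : ℝ) ^ (1 / (k : ℝ)) ≤ (2 : ℝ) ^ (1 : ℝ) := by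
          apply Real.rpow_le_rpow_of_exponent_le (by norm_num)
          rw [div_le_one hk0]
          exact_mod_cast hkpos
      _ = 2 := by simp
  have hsplit : (N : ℝ) = (N : ℝ) ^ (1 - 1 / (k : ℝ)) * Z := by
    rw [hZ, ← Real.rpow_add hNpos]
    simp
  have hcardR : (N : ℝ) ≤ (A.card : ℝ) * (2 * (D.card : ℝ) + 1) := by exact_mod_cast hcard
  have hW : 0 ≤ (N : ℝ) ^ (1 - 1 / (k : ℝ)) := by positivity
  have hA0 : (0 : ℝ) ≤ (A.card : ℝ) := Nat.cast_nonneg _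
  have hn00 : (0 : ℝ) ≤ (n0 : ℝ) := Nat.cast_nonneg _
  have hbound : (N : ℝ) ^ (1 - 1 / (k : ℝ)) * Z ≤ (A.card : ℝ) * ((2 * n0 + 7) * Z) := by
    rw [← hsplit]
    refine hcardR.trans (mul_le_mul_of_nonneg_left ?_ hA0)
    nlinarith
  have hfin : (N : ℝ) ^ (1 - 1 / (k : ℝ)) ≤ (A.card : ℝ) * (2 * n0 + 7) := by
    have hZpos : 0 < Z := by linarith
    have : (N : ℝ) ^ (1 - 1 / (k : ℝ)) * Z ≤ ((A.card : ℝ) * (2 * n0 + 7)) * Z := by
      rw [mul_assoc]; exact hbound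
    exact le_of_mul_le_mul_right this hZpos
  have hrR : (A.card : ℝ) ≤ (r h N : ℝ) := by exact_mod_cast hr
  rw [div_mul_eq_mul_div, one_mul, div_le_iff₀ (by positivity)]
  calc (N : ℝ) ^ (1 - 1 / (k : ℝ)) ≤ (A.card : ℝ) * (2 * n0 + 7) := hfin
    _ ≤ (r h N : ℝ) * (2 * n0 + 7) := mul_le_mul_of_nonneg_right hrR (by positivity)

end Vale.Agent.Results.P042.GreedyLower
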