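import Vale.Agent.Lib.P042.RuzsaForm

namespace Vale.Agent.Results.P042.HybridRuzsa

open Polynomial Vale.Agent.Lib.P042

theorem result (s m : ℕ) (hs : 2 ≤ s) (hm : 2 ≤ m) (hsq : Squarefree m) (R : Finset ℕ)
    (hRne : R.Nonempty) (hRlt : ∀ t ∈ R, t < m)
    (hR : ∀ t ∈ R, ∀ t' ∈ R, ∀ z : ℤ, (m : ℤ) ∣ ((t : ℤ) - (t' : ℤ) - z ^ s) → t = t')
    (g : ℤ[X]) (hg : 1 ≤ g.natDegree) (hlead : 0 < g.leadingCoeff) (hsep : SeparableMod g m) :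
    ∃ c : ℝ, 0 < c ∧ ∀ N : ℕ, 1 ≤ N →
      c * (N : ℝ) ^ (1 - (1 - Real.log (R.card : ℝ) / Real.log (m : ℝ)) / ((g ^ s).natDegree : ℝ))
        ≤ (r (g ^ s) N : ℝ) := by
  obtain ⟨c, hc, h⟩ := hybrid_ruzsa (by omega) hm hsq hRne hRlt hR hg hlead hsep
  refine ⟨c, hc, fun N hN => ?_⟩
  have hdeg : ((g ^ s).natDegree : ℝ) = (s : ℝ) * (g.natDegree : ℝ) := by
    rw [Polynomial.natDegree_pow]
    push_cast
    ring
  rw [hdeg]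
  exact h N hN

end Vale.Agent.Results.P042.HybridRuzsa
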