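import Vale.Agent.Lib.P042.Separable

namespace Vale.Agent.Results.P042.SquaresBeatGreedy

open Polynomial Vale.Agent.Lib.P042

lemma aux (g : ℤ[X]) (hg : 1 ≤ g.natDegree) (hlead : 0 < g.leadingCoeff)
    (hsep : (g.map (Int.castRingHom ℚ)).Separable) :
    ∃ δ : ℝ, 0 < δ ∧ ∃ c : ℝ, 0 < c ∧ ∀ N : ℕ, 1 ≤ N →
      c * (N : ℝ) ^ (1 - 1 / ((g ^ 2).natDegree : ℝ) + δ) ≤ (r (g ^ 2) N : ℝ) := by
  obtain ⟨u, v, c0, hc0, hbez⟩ := exists_bezout hsep
  obtain ⟨p, hp, hpgt, hpmod⟩ := Nat.exists_prime_gt_modEq_one (k := 4) c0.natAbs (by norm_num)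
  have hp4 : p % 4 = 1 := by
    have : p % 4 = 1 % 4 := hpmod
    simpa using this
  have hpc : ¬ (p : ℤ) ∣ c0 := by
    intro hd
    have h1 : p ∣ c0.natAbs := Int.natCast_dvd.1 hd
    have h2 : 0 < c0.natAbs := Int.natAbs_pos.2 hc0
    have := Nat.le_of_dvd h2 h1
    omega
  have hsepp := separableMod_of_bezout hbez hp hpc
  obtain ⟨ν, hν0, hνp, hR⟩ := exists_pair hp hp4
  have hRlt : ∀ t ∈ ({0, ν} : Finset ℕ), t < p := by
    intro t ht
    simp only [Finset.mem_insert, Finset.mem_singleton] at ht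
    rcases ht with rfl | rfl
    · exact hp.pos
    · exact hνp
  obtain ⟨c, hc, h⟩ := hybrid_ruzsa (s := 2) (m := p) (by norm_num) hp.two_le hp.prime.squarefree
    (R := {0, ν}) (by simp) hRlt hR hg hlead hsepp
  have hcard : (({0, ν} : Finset ℕ).card : ℝ) = 2 := by
    rw [Finset.card_pair (by omega)]; norm_num
  have hpR : (1 : ℝ) < (p : ℝ) := by exact_mod_cast hp.one_lt
  have hlogp : 0 < Real.log (p : ℝ) := Real.log_pos hpR
  have hlog2 : 0 < Real.log 2 := Real.log_pos (by norm_num)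
  have heR : (0 : ℝ) < (g.natDegree : ℝ) := by
    have : 0 < g.natDegree := by omega
    exact_mod_cast this
  refine ⟨Real.log 2 / Real.log (p : ℝ) / (2 * (g.natDegree : ℝ)), by positivity, c, hc,
    fun N hN => ?_⟩
  have := h N hN
  rw [hcard] at this
  have hdeg : ((g ^ 2).natDegree : ℝ) = 2 * (g.natDegree : ℝ) := by
    rw [Polynomial.natDegree_pow]
    push_cast
    ring
  rw [hdeg]
  have hexp : 1 - 1 / (2 * (g.natDegree : ℝ)) + Real.log 2 / Real.log (p : ℝ) / (2 * (g.natDegree : ℝ))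
      = 1 - (1 - Real.log 2 / Real.log (p : ℝ)) / (((2 : ℕ) : ℝ) * (g.natDegree : ℝ)) := by
    push_cast
    ring
  rw [hexp]
  exact this

theorem result (g : ℤ[X]) (hg : 1 ≤ g.natDegree)
    (hsep : (g.map (Int.castRingHom ℚ)).Separable) :
    ∃ δ : ℝ, 0 < δ ∧ ∃ c : ℝ, 0 < c ∧ ∀ N : ℕ, 1 ≤ N →
      c * (N : ℝ) ^ (1 - 1 / ((g ^ 2).natDegree : ℝ) + δ) ≤ (r (g ^ 2) N : ℝ) := by
  have hne : g.leadingCoeff ≠ 0 := by
    rw [Ne, Polynomial.leadingCoeff_eq_zero]
    rintro rfl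
    simp at hg
  rcases lt_or_gt_of_ne hne with hneg | hpos
  · have h1 : 1 ≤ (-g).natDegree := by rw [natDegree_neg]; exact hg
    have h2 : 0 < (-g).leadingCoeff := by rw [leadingCoeff_neg]; linarith
    have h3 : ((-g).map (Int.castRingHom ℚ)).Separable := by
      rw [Polynomial.map_neg]
      have : -(g.map (Int.castRingHom ℚ)) = C (-1 : ℚ) * g.map (Int.castRingHom ℚ) := by simp
      rw [this]
      exact Separable.unit_mul (Polynomial.isUnit_C.2 (isUnit_iff_ne_zero.2 (by norm_num))) hsep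
    have := aux (-g) h1 h2 h3
    rwa [neg_sq] at this
  · exact aux g hg hpos hsep

end Vale.Agent.Results.P042.SquaresBeatGreedy
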