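import Vale.Agent.Lib.P042.RuzsaForm
import Vale.Agent.Results.P042.GreedyLower
import Vale.Agent.Results.P042.HybridRuzsa
import Vale.Agent.Results.P042.SquaresBeatGreedy

namespace Vale.Agent.Results.P042.Combined

open Polynomial Vale.Agent.Lib.P042

def R205 : Finset ℕ := {0, 3, 14, 37, 56, 71, 79, 85, 113, 148, 150, 182}

lemma R205_zmod : ∀ t ∈ R205, ∀ t' ∈ R205, ∀ z : ZMod 205,
    (t : ZMod 205) - (t' : ZMod 205) - z ^ 2 = 0 → t = t' := by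
  decide +kernel

lemma R205_spec : ∀ t ∈ R205, ∀ t' ∈ R205, ∀ z : ℤ,
    ((205 : ℕ) : ℤ) ∣ ((t : ℤ) - (t' : ℤ) - z ^ 2) → t = t' := by
  intro t ht t' ht' z hz
  apply R205_zmod t ht t' ht' (z : ZMod 205)
  have := (ZMod.intCast_zmod_eq_zero_iff_dvd ((t : ℤ) - (t' : ℤ) - z ^ 2) 205).2 hz
  push_cast at this
  exact this

lemma sep205 {g : ℤ[X]}
    (h5 : ∀ x : ℤ, ¬ ((5 : ℤ) ∣ g.eval x ∧ (5 : ℤ) ∣ (derivative g).eval x))
    (h41 : ∀ x : ℤ, ¬ ((41 : ℤ) ∣ g.eval x ∧ (41 : ℤ) ∣ (derivative g).eval x)) :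
    SeparableMod g 205 := by
  intro p hp hpd x
  have h205 : (205 : ℕ) = 5 * 41 := by norm_num
  rw [h205] at hpd
  rcases (Nat.Prime.dvd_mul hp).1 hpd with h | h
  · have : p = 5 := (Nat.prime_dvd_prime_iff_eq hp (by norm_num)).1 h
    subst this
    exact h5 x
  · have : p = 41 := (Nat.prime_dvd_prime_iff_eq hp (by norm_num)).1 h
    subst this
    exact h41 x

lemma sq205 (g : ℤ[X]) (hg : 1 ≤ g.natDegree) (hlead : 0 < g.leadingCoeff)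
    (h5 : ∀ x : ℤ, ¬ ((5 : ℤ) ∣ g.eval x ∧ (5 : ℤ) ∣ (derivative g).eval x))
    (h41 : ∀ x : ℤ, ¬ ((41 : ℤ) ∣ g.eval x ∧ (41 : ℤ) ∣ (derivative g).eval x)) :
    ∃ c : ℝ, 0 < c ∧ ∀ N : ℕ, 1 ≤ N →
      c * (N : ℝ) ^ (1 - (1 - Real.log 12 / Real.log 205) / ((g ^ 2).natDegree : ℝ))
        ≤ (r (g ^ 2) N : ℝ) := by
  have hsq : Squarefree 205 := by
    rw [Nat.squarefree_iff_prime_squarefree]
    intro p hp hpp
    have h1 : p * p ≤ 205 := Nat.le_of_dvd (by norm_num) hpp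
    have h2 : p ≤ 14 := by nlinarith
    have h3 : 2 ≤ p := hp.two_le
    interval_cases p <;> revert hpp <;> decide
  obtain ⟨c, hc, h⟩ := hybrid_ruzsa (s := 2) (m := 205) (by norm_num) (by norm_num) hsq
    (R := R205) (by decide) (by decide) R205_spec hg hlead (sep205 h5 h41)
  refine ⟨c, hc, fun N hN => ?_⟩
  have hdeg : ((g ^ 2).natDegree : ℝ) = ((2 : ℕ) : ℝ) * (g.natDegree : ℝ) := by
    rw [Polynomial.natDegree_pow]
    push_cast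
    ring
  have hcard : (R205.card : ℝ) = 12 := by
    have : R205.card = 12 := by decide
    rw [this]; norm_num
  have := h N hN
  rw [hcard] at this
  rw [hdeg]
  exact_mod_cast this

/-- Four lower bounds for `r_h(N)` in one statement.
(1) `r_h(N) ≥ c N^(1 - 1/k)` for every `h` of degree `k ≥ 2` with positive leading coefficient.
(2) The hybrid of Ruzsa's digit construction and the greedy selection for perfect powers `h = g^s`.
(3) The instance `s = 2`, `m = 205`, twelve residues.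
(4) For every separable `g`, the square `h = g^2` beats the greedy exponent by a fixed power. -/
theorem result :
    (∀ h : ℤ[X], 2 ≤ h.natDegree → 0 < h.leadingCoeff →
      ∃ c : ℝ, 0 < c ∧ ∀ N : ℕ, c * (N : ℝ) ^ (1 - 1 / (h.natDegree : ℝ)) ≤ (r h N : ℝ)) ∧
    (∀ s m : ℕ, 2 ≤ s → 2 ≤ m → Squarefree m → ∀ R : Finset ℕ, R.Nonempty → (∀ t ∈ R, t < m) →
      (∀ t ∈ R, ∀ t' ∈ R, ∀ z : ℤ, (m : ℤ) ∣ ((t : ℤ) - (t' : ℤ) - z ^ s) → t = t') →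
      ∀ g : ℤ[X], 1 ≤ g.natDegree → 0 < g.leadingCoeff → SeparableMod g m →
      ∃ c : ℝ, 0 < c ∧ ∀ N : ℕ, 1 ≤ N →
        c * (N : ℝ) ^ (1 - (1 - Real.log (R.card : ℝ) / Real.log (m : ℝ)) / ((g ^ s).natDegree : ℝ))
          ≤ (r (g ^ s) N : ℝ)) ∧
    (∀ g : ℤ[X], 1 ≤ g.natDegree → 0 < g.leadingCoeff →
      (∀ x : ℤ, ¬ ((5 : ℤ) ∣ g.eval x ∧ (5 : ℤ) ∣ (derivative g).eval x)) →
      (∀ x : ℤ, ¬ ((41 : ℤ) ∣ g.eval x ∧ (41 : ℤ) ∣ (derivative g).eval x)) →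
      ∃ c : ℝ, 0 < c ∧ ∀ N : ℕ, 1 ≤ N →
        c * (N : ℝ) ^ (1 - (1 - Real.log 12 / Real.log 205) / ((g ^ 2).natDegree : ℝ))
          ≤ (r (g ^ 2) N : ℝ)) ∧
    (∀ g : ℤ[X], 1 ≤ g.natDegree → (g.map (Int.castRingHom ℚ)).Separable →
      ∃ δ : ℝ, 0 < δ ∧ ∃ c : ℝ, 0 < c ∧ ∀ N : ℕ, 1 ≤ N →
        c * (N : ℝ) ^ (1 - 1 / ((g ^ 2).natDegree : ℝ) + δ) ≤ (r (g ^ 2) N : ℝ)) :=
  ⟨fun h hd hl => Vale.Agent.Results.P042.GreedyLower.result h hd hl,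
   fun s m hs hm hsq R hRne hRlt hR g hg hl hsep =>
     Vale.Agent.Results.P042.HybridRuzsa.result s m hs hm hsq R hRne hRlt hR g hg hl hsep,
   fun g hg hl h5 h41 => sq205 g hg hl h5 h41,
   fun g hg hsep => Vale.Agent.Results.P042.SquaresBeatGreedy.result g hg hsep⟩

end Vale.Agent.Results.P042.Combined
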